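import Vale.Agent.P144C.L.Half

/-!
Sign changes at corners: universality on the lattice.
-/

namespace Vale.Agent.P144C

open Finset Matrix Vale.Agent.P144Z P144 UL ILat IVL ELat

theorem latK2 (hMk : MkStmt2) (hLB : LB2) : LatK2 := by
  intro N₀
  obtain ⟨c', hc', Cm, hMk⟩ := hMk N₀
  refine ⟨c', hc', fun η₁ hη₁ => ?_⟩
  obtain ⟨Lm, hMk⟩ := hMk _ hη₁
  refine ⟨8 + Lm, fun L hL Raw Cl q Zσ Zε Zσ' Zε' m hq hsm hU hU0 hD J lam β hJ hμ hx n Λ₀ ε hε =>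
    ?_⟩
  have hL2 : 2 ≤ L := by omega
  replace hMk := hMk L (by omega)
  obtain ⟨t, N, Q, Cd, JG, ht, hQ, hD⟩ := hD
  obtain ⟨CL, hLB⟩ := hLB N₀ c' hc' L (by omega) Cd
  have rq : Rel J lam β q := ⟨hq.pot, hq.range, hμ, hx⟩
  have r0 : Rel J 0 (Kc / J) par0 := ⟨U1.pot_zero, fun _ h => absurd rfl h, (mul_zero _).symm, by
    rw [mul_assoc, div_mul_cancel₀ _ hJ.ne']
    exact U4.tc_eq⟩
  have k0 := crit_par0 L 1 1 zero_le_one zero_le_one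
  obtain ⟨K, hD⟩ := hD (2 * q.R + 4)
  obtain ⟨k₀, hD⟩ := hD Λ₀
  obtain ⟨H₀, Qh, hQh, hO⟩ := holesW N ((Λ₀ + 1) * (2 * Q))
  obtain ⟨c, c0, hc⟩ := arith (C₁ := Q + Cm + CL + 18) hQ hQh le_rfl hQ (by omega) hL2 Λ₀
  have cL : (1 : ℝ) ≤ c := by exact_mod_cast c0
  obtain ⟨Λ₁, hΛ₁⟩ : ∃ Λ₁, Λ₁ = 2 * (Λ₀ + 1) * c := ⟨_, rfl⟩
  obtain ⟨N', hN'⟩ : ∃ N', N' = n + H₀ + 1 + m + k₀ + (4 * ((Λ₀ + 1) * (2 * Q)) + 1) ^ 2 + Λ₁ :=
    ⟨_, rfl⟩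
  obtain ⟨Γ, hΓ, r₀, hG⟩ := gapOf gapW N Λ₁
  obtain ⟨τ₁, hτ₁, B₁, h1⟩ := halfK2 (R := q.R) hL2 hU K le_rfl ht le_rfl hq.range hq.x_lo
    hq.x_hi hsm rq n N' Λ₁ hΓ
  obtain ⟨τ₀, hτ₀, B₀, h0⟩ := halfK2 (R := q.R) (R₁ := 0) hL2 hU0 K (Nat.zero_le _) ht
    (Nat.zero_le _) (fun _ h => absurd rfl h) k0.ok.x_lo k0.ok.x_hi k0.small r0 n N' Λ₁ hΓ
  obtain ⟨c₀, hc₀, JL, hLB⟩ := hLB N'
  obtain ⟨δ, hδ, hfin⟩ := fin' m B₀ (Zσ ^ n) Zε (Zσ' ^ n) Zε' hc₀ (τ := min (min τ₁ τ₀) 1)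
    (ε := ε / (c : ℝ) ^ (n + m)) (by positivity) (min_le_right _ _) (by positivity)
  obtain ⟨J₁, h1⟩ := h1 δ hδ
  obtain ⟨J₀, h0⟩ := h0 δ hδ
  obtain ⟨r₁, hc⟩ := hc (J₀ + J₁ + JL + JG + r₀ + 1) (Q * (K + 1) + 4 * t + Q + Qh + 1)
  refine ⟨r₁, fun r hr Λ b x y j hR' hΛ hs => ?_⟩
  obtain ⟨ρ, J', n1, n2, f0, e4, f2, -, -, f5, f6, f7, -, fQ, e6, -, e5, -⟩ := hc r hr
  rw [add_mul, add_mul, add_mul] at n2
  rw [← hΛ₁] at e5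
  have s9 := sc_ge (J := J') hL2
  have e1 : (Λ₀ + 1) * r = Λ₀ * r + r := by ring
  have e9 : Λ₁ * sc L J' ≤ N' * sc L J' := Nat.mul_le_mul_right _ (by omega)
  have e7 : 4 * ((Λ₀ + 1) * r) ≤ 4 * ((Λ₀ + 1) * (2 * Q)) * (r / Q + 1) := by
    rw [mul_assoc 4, mul_add_one ((Λ₀ + 1) * (2 * Q))]
    omega
  set T := (Λ₀ + 1) * r with hT'
  have hΛ' : ∀ v ∈ Λ, zd v 0 ≤ T := fun v hv => (hΛ v hv).trans (by omega)
  have : NeZero (64 * (2 * T)) := ⟨by omega⟩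
  set M := 64 * (2 * T) with hMd
  obtain ⟨P, b₁, b', k, p, e, νc, hk, p1, p2, b1, b3, mg, mb, b4, dp, sW⟩ := hD Λ b r T hR'
    (by omega) (by omega) hΛ' hΛ
  have bx : ∀ v ∈ dig Λ P t, zd v 0 ≤ T := fun v hv => hΛ' v (mem_dig.1 hv).1
  obtain ⟨sW, hB⟩ := sW M (by omega)
  obtain ⟨H, hH, a, hs', g4, gc⟩ := hO (dig Λ P t) T (r / Q) M sW (by omega) (by omega) e6
    bx (by omega)
  replace g4 := holes_mono g4 f2
  have mg' : MkG2 (dig Λ P t) N₀ ρ p e νc := mg.mono f6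
  choose u ν hch using fun i => hMk M _ _ J' _ _ _ ((mg'.mk1 i).mkT bx (by omega))
    (by have := (mg'.mk1 i).tdist_le (M := M) bx; omega) (by omega) (by omega)
  obtain ⟨⟨ε', ς, κ₁, hε', hς, hκ₁, sel⟩, n₀, q1, q2, q3⟩ := secA M _ _ _ H k a hs' p e b' g4 gc
    mg.injective (fun i => ⟨(mg.mk1 i).touch, (mg.mk1 i).rem⟩) mb.wall (by omega)
  have κ1 : κ₁ ≠ 0 := fun h => by
    rw [h, abs_zero] at hκ₁
    exact (pow_pos two_pos H).ne hκ₁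
  have G : GD2 Cl L J' Λ₁ Γ c' η₁ M (dig Λ P t) (2 * T) ρ a hs' (mkS M p e) u ν :=
    ⟨g4, mg'.mkDat g4.box (by omega) (by omega) hch,
      by omega, by omega, e5, rfl, fun B h => hB B (ρ - 1) J' h (by omega) (by omega) (by omega),
      hG M _ _ ρ _ (sW.mono (by omega)) g4.box (by omega) (by omega) (by omega) (by omega) e5 rfl⟩
  have hsp := spins_dig (r' := ρ) hs (fun p hp => (p1 p hp).2) (by omega)
  have p4 := B5a2.card_net (fun p hp => (p1 p hp).1) p2 (le_trans (by omega) e7)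
  have w := fun {S : Prop} (h : (∀ v ∈ Λ, zd v 0 ≤ 2 * T) → (∀ z ∈ P, zd z 0 ≤ 2 * T) →
      MkG2 (dig Λ P t) N₀ ρ p e νc → MkB (dig Λ P t) b₁ b' (2 * q.R + 4) K p e →
      (∀ v, v ∉ Λ → b₁ v = b v) → (∀ z ∈ P, ∀ z' ∈ P, z ≠ z' → ρ < zd z z') →
      (∀ z ∈ P, ∀ v, zd v z ≤ ρ → v ∉ dig Λ P t → b₁ v = b₁ z) → (∀ z ∈ P, ∀ i, ρ < zd (p i) z) →
      Spins (dig Λ P t) ρ (Sum.elim x y) → S) => h (fun v hv => (hΛ' v hv).trans (by omega))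
    (fun z hz => (p1 z hz).1.trans (by omega)) mg' mb b1
    (fun z hz z' hz' h => f6.trans_lt (p2 z hz z' hz' h))
    (fun z hz v hv => b3 z hz v (by omega))
    (fun z hz i => f6.trans_lt (b4 z hz i)) hsp
  obtain ⟨f₀, f₁, ζ, ζ₁, a1, -, a3, a4, a5, -, a7⟩ := w (h1 J' (by omega) M Λ P _ ρ H k a hs' p e
    u ν ε' ς κ₁ N₀ νc b b₁ b' x y j G (by omega) (by omega) hε' hς κ1 sel)
  obtain ⟨u₀, u₁, ζ₂, ζ₃, c1, c2, c3, c4, c5, c6, c7⟩ := w (h0 J' (by omega) M Λ P _ ρ H k a hs'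
    p e u ν ε' ς κ₁ N₀ νc b b₁ b' x y j G (by omega) (by omega) hε' hς κ1 sel)
  change _ = _ * lcor (gibbs J 0 (fun _ => 0) _ _ _) _ _ _ at c1
  set I := (dig Λ P t).image (prj M) with hI
  set ℓ : ℝ := ((sc L J' : ℕ) : ℝ) with hℓ
  have l0 : 0 < ℓ := by rw [hℓ]; exact_mod_cast (by omega : 0 < sc L J')
  have ν0 : 0 < ∏ i, ν i J' := prod_pos fun i _ => (hch i).nu_pos le_rfl
  have lb : c₀ ≤ |fS I a hs' (mkS M p e) ε' ς y j ℓ (∏ i, ν i J') par0 1 Fin.elim0 ∅| := by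
    have t1 := hLB J' (by omega) M _ T ρ H k a hs' p e νc η₁ u ν n₀ (dp.mono f6)
      bx (not_mem_image g4.box (by omega) g4.a_le (g4.a_out a (by simp [zd_self])))
      (fun i => not_mem_image g4.box (by omega) (g4.h_le i) (g4.h_out i _ (by simp [zd_self]))) gc
      (by omega) (by omega) mg' (by omega) (by omega) (by omega) (by omega) hch q1 q2
    have t2 : sB par0 I b' (1 : Fin k → _) 1 = Yn I (P144Z.tc • pwI I) n₀ := by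
      simpa only [sB, Pi.one_apply, one_mul] using q3
    have t4 : 0 < Zw par0 (pwI I) 1 := DH1.Zw_plus_pos g4.box (by omega) H2D.tc_pos
    have t5 : (1 : ℝ) ≤ 2 ^ H := one_le_pow₀ one_le_two
    rw [fS_empty (y := y) (j := j) sel (fun i => mem_image_of_mem _ (hsp.ins (Sum.inr i) _
      ((zd_add_dir _ _).trans (by omega)))) ν0, t2, hκ₁, abs_of_pos t4, div_mul_eq_mul_div,
      le_div_iff₀ (by positivity), ← mul_assoc]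
    exact (t1.trans (le_abs_self _)).trans (le_mul_of_one_le_left (abs_nonneg _) t5)
  have τ1 : min (min τ₁ τ₀) 1 ≤ τ₁ := (min_le_left _ _).trans (min_le_left _ _)
  have τ0 : min (min τ₁ τ₀) 1 ≤ τ₀ := (min_le_left _ _).trans (min_le_right _ _)
  have key := hfin _ _ _ _ _ _ _ _ _ _ _ _ a4 a5 c4 c5 (τ1.trans a3) (τ0.trans c3) c2 lb c6
    ((mul_le_mul_of_nonneg_right τ1 (abs_nonneg _)).trans a7)
    ((mul_le_mul_of_nonneg_right τ0 (abs_nonneg _)).trans c7)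
  rw [a1, c1] at key
  exact endg l0 (by exact_mod_cast (by omega : 0 < r)) cL (by rw [hℓ]; exact_mod_cast e4) key

end Vale.Agent.P144C
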