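import Vale.Agent.P144C.Defs

/-!
Sign changes at corners: from the marks of the plane lattice to the marks of the torus.
-/

namespace Vale.Agent.P144C

open Finset Matrix Vale.Agent.P144Z GeoA IConv

section

variable {Λ : Finset (ℤ × ℤ)} {N r r' T : ℕ} {x : ℤ × ℤ} {e : Fin 4} {ν : ℂ}

theorem TrZ.mono (h : TrZ Λ x r N) (hr : r' ≤ r) : TrZ Λ x r' N := by
  obtain ⟨Hs, Vs, h1, h2⟩ := h
  exact ⟨Hs, Vs, fun v hv => h1 v (hv.trans hr), h2⟩

theorem MkZ2.mono (h : MkZ2 Λ N r x e ν) (hr : r' ≤ r) : MkZ2 Λ N r' x e ν := by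
  obtain ⟨S, h2, h4⟩ := h.cone
  exact ⟨h.nrm, ⟨S, h2, fun v hv => h4 v (hv.trans hr)⟩, h.rem, h.touch, h.tr.mono hr⟩

theorem MkG2.mono {k : ℕ} {x : Fin k → ℤ × ℤ} {e : Fin k → Fin 4} {ν : Fin k → ℂ}
    (h : MkG2 Λ N r x e ν) (hr : r' ≤ r) : MkG2 Λ N r' x e ν :=
  ⟨fun i => (h.mk1 i).mono hr, fun i i' n => hr.trans_lt (h.sep i i' n)⟩

theorem MkG2.injective {k : ℕ} {x : Fin k → ℤ × ℤ} {e : Fin k → Fin 4} {ν : Fin k → ℂ}
    (h : MkG2 Λ N r x e ν) : Function.Injective x := fun i i' hx => by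
  by_contra n
  have := h.sep i i' n
  rw [hx, IConv.zd_self] at this
  omega

variable {M : ℕ}

theorem cast_inj {a b : ℤ} (e : (a : ZMod M) = b) (hab : (a - b).natAbs < M) : a = b := by
  have := Int.eq_zero_of_dvd_of_natAbs_lt_natAbs
    ((ZMod.intCast_eq_intCast_iff_dvd_sub b a M).1 e.symm) (by simpa using hab)
  omega

theorem card_img {S : Finset (ℤ × ℤ)} (f : ℤ × ℤ → ℤ) (g : Tor M → ZMod M)
    (hg : ∀ v, g (prj M v) = f v) (hf : ∀ v w, (f v - f w).natAbs ≤ zd v w) (hM : 2 * r < M)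
    (h : ∀ t, (S.filter fun v => f v = t).card ≤ N) (t : ZMod M) :
    (((S.filter fun v => zd v x ≤ r).image (prj M)).filter fun y => g y = t).card ≤ N := by
  rcases (((S.filter fun v => zd v x ≤ r).image (prj M)).filter fun y => g y = t).eq_empty_or_nonempty
    with h0 | ⟨y, hy⟩
  · rw [h0, card_empty]
    exact Nat.zero_le _
  obtain ⟨hy, ht⟩ := mem_filter.1 hy
  obtain ⟨w, hw, rfl⟩ := mem_image.1 hy
  refine (card_le_card (t := (S.filter fun v => f v = f w).image (prj M)) fun y hy => ?_).trans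
    (card_image_le.trans (h _))
  obtain ⟨hy, ht'⟩ := mem_filter.1 hy
  obtain ⟨v, hv, rfl⟩ := mem_image.1 hy
  refine mem_image_of_mem _ (mem_filter.2 ⟨(mem_filter.1 hv).1, cast_inj (M := M) ?_ ?_⟩)
  · rw [← hg, ← hg, ht, ht']
  · have h1 := (mem_filter.1 hv).2
    have h2 := (mem_filter.1 hw).2
    have h3 := zd_tri v x w
    rw [zd_comm x] at h3
    have := hf v w
    omega

variable [NeZero M]

theorem TrZ.trB (h : TrZ Λ x r N) (hΛ : ∀ v ∈ Λ, zd v 0 ≤ T) (hx : zd x 0 ≤ T + 1)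
    (hM : 2 * T + 2 * r + 4 ≤ M) : TrB (Λ.image (prj M)) (prj M x) r N := by
  obtain ⟨Hs, Vs, h1, h2, h3⟩ := h
  refine ⟨(Hs.filter fun v => zd v x ≤ r).image (prj M),
    (Vs.filter fun v => zd v x ≤ r).image (prj M), fun y hy ⟨⟨f, a1, a2⟩, f', a3, a4⟩ => ?_,
    card_img Prod.snd Prod.snd (fun _ => rfl) (fun v w => by simp [zd]) (by omega) h2,
    card_img Prod.fst Prod.fst (fun _ => rfl) (fun v w => by simp [zd]) (by omega) h3⟩
  have key : ∀ (f : Tor M) (w : ℤ × ℤ), ∃ v, prj M v = f ∧ zd v w = tdist f (prj M w) :=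
    fun f w => ⟨w + lft (f - prj M w), by rw [G.prj_add, prj_lft, add_sub_cancel],
      by rw [zd_add_left, zd_lft]⟩
  obtain ⟨v, rfl, hv⟩ := key y x
  obtain ⟨u, rfl, hu⟩ := key f v
  obtain ⟨u', rfl, hu'⟩ := key f' v
  have b1 := zd_tri v x 0
  have b2 := zd_tri u v 0
  have := h1 v (by omega) ⟨u, (mem_image_prj hΛ (R := T + r + 3) (by omega) (by omega)).1 a1,
    by omega⟩ ⟨u', fun h => a3 (mem_image_of_mem _ h), by omega⟩
  exact this.imp (fun h => mem_image_of_mem _ (mem_filter.2 ⟨h, by omega⟩))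
    fun h => mem_image_of_mem _ (mem_filter.2 ⟨h, by omega⟩)

/-- From the plane to the torus. -/
theorem MkZ2.mkT (h : MkZ2 Λ N r x e ν) (hΛ : ∀ v ∈ Λ, zd v 0 ≤ T) (hM : 2 * T + 2 * r + 4 ≤ M) :
    MkT2 (Λ.image (prj M)) N r (prj M x) (e + 2) ν := by
  have hx := h.touch.zd_le hΛ
  obtain ⟨S, h2, h4⟩ := h.cone
  refine ⟨⟨h.nrm, ⟨S, h2, fun v hv => Iff.trans ?_ (h4 v hv)⟩, ?_, h.touch.touchT⟩,
    h.tr.trB hΛ hx hM⟩
  · rw [← G.prj_add]
    refine mem_image_prj hΛ (R := T + 1 + r) (by omega) ?_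
    have := zd_tri (x + v) x 0
    rw [zd_add_left] at this
    omega
  · exact pwI_hedge_zero.1
      ((pwI_hedge_prj (M := M) hΛ (R := T + 1) (by omega) hx (e + 2)).2 h.rem)

theorem MkZ2.tdist_le (h : MkZ2 Λ N r x e ν) (hΛ : ∀ v ∈ Λ, zd v 0 ≤ T) :
    tdist (prj M x) 0 ≤ T + 1 := by
  have := tdist_prj_le_zd (M := M) x 0
  rw [G.prj_zero] at this
  exact this.trans (h.touch.zd_le hΛ)

theorem MkG2.tsep {k : ℕ} {x : Fin k → ℤ × ℤ} {e : Fin k → Fin 4} {ν : Fin k → ℂ}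
    (h : MkG2 Λ N r x e ν) (hΛ : ∀ v ∈ Λ, zd v 0 ≤ T) (hM : 4 * (T + 1) ≤ M) {i i' : Fin k}
    (n : i ≠ i') : r < tdist (prj M (x i)) (prj M (x i')) := by
  have h1 := (h.mk1 i).touch.zd_le hΛ
  have h2 := (h.mk1 i').touch.zd_le hΛ
  have h3 := zd_tri (x i) 0 (x i')
  rw [zd_comm 0] at h3
  rw [IConv.tdist_prj (by omega)]
  exact h.sep i i' n

/-- The data of the insertions. -/
theorem MkG2.mkDat {k : ℕ} {x : Fin k → ℤ × ℤ} {e : Fin k → Fin 4} {νc : Fin k → ℂ}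
    (h : MkG2 Λ N r x e νc) (hΛ : ∀ v ∈ Λ, zd v 0 ≤ T) (hM : 4 * (T + 1) ≤ M) {L J : ℕ}
    (hr : 16 * sc L J ≤ r) {u : Fin k → ℕ → Tor M × Fin 4 → ℝ} {ν : Fin k → ℕ → ℝ} {c η : ℝ}
    (hch : ∀ i, MkCh2 (pwI (Λ.image (prj M))) L J (mkS M x e i) (u i) (ν i) c η) :
    MkDat2 (pwI (Λ.image (prj M))) (mkS M x e) u ν L J c η where
  val := pwI_val _
  rem := fun i => (pwI_hedge_prj (M := M) hΛ (R := T + 1) (by omega)
    ((h.mk1 i).touch.zd_le hΛ) (e i + 2)).2 (h.mk1 i).rem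
  pres := fun i => ((h.mk1 i).touch.touchT (M := M)).imp fun _ h => pwI_hedge_one.2 (Or.inr h)
  sep := fun _ _ n => hr.trans_lt (h.tsep hΛ hM n)
  ch := hch

end

/-- All sizes up to the last scale are positive. -/
theorem MkCh2.nu_pos {M : ℕ} [NeZero M] {A : Gauge M} {L J : ℕ} {s : Tor M × Fin 4}
    {u : ℕ → Tor M × Fin 4 → ℝ} {ν : ℕ → ℝ} {c η : ℝ} (h : MkCh2 A L J s u ν c η) {j : ℕ}
    (hj : j ≤ J) : 0 < ν j := by
  rcases j with _ | _ | j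
  · exact h.zero.pos
  · exact h.zero.pos'
  · exact (h.pos (j + 1) (by omega) (by omega)).pos'

end Vale.Agent.P144C
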