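import Vale.Agent.P144C.L.Conv

/-!
Sign changes at corners: the correlations in terms of the dug set.
-/

namespace Vale.Agent.P144C

open Finset Matrix Vale.Agent.P144Z P144 UL ILat IVL

/-- The geometric data. -/
structure GD2 (Q : Cls) (L J Λ₁ : ℕ) (Γ c' η₁ : ℝ) (M : ℕ) [NeZero M] (Λ : Finset Site) (T ρ : ℕ)
    {H k : ℕ} (a : Site) (hs : Fin H → Site) (s : Fin k → Tor M × Fin 4)
    (u : Fin k → ℕ → Tor M × Fin 4 → ℝ) (ν : Fin k → ℕ → ℝ) : Prop where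
  holes : Holes Λ T ρ a hs
  dat : MkDat2 (pwI (Λ.image (prj M))) s u ν L J c' η₁
  lo : 17 * sc L J ≤ ρ
  le : ρ ≤ T
  hi : T ≤ Λ₁ * sc L J
  eq : M = 64 * T
  bd : ∀ B, Str (pwI (Λ.image (prj M))) B (ρ - 1) → Q M (pwI (Λ.image (prj M)) * B) J
  gap : ∀ B, Str (pwI (Λ.image (prj M))) B (ρ - 1) → (∀ e, T + 1 < tdist e.1 0 → B e = 1) →
    ∀ φ, φ ⬝ᵥ φ ≤ (Γ * sc L J) ^ 2 * ((Dm (pwI (Λ.image (prj M)) * B) *ᵥ φ) ⬝ᵥ
      (Dm (pwI (Λ.image (prj M)) * B) *ᵥ φ))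

variable {Q : Cls} {L m K₁ : ℕ} {q : Par} {Zσ Zε c' η₁ δ : ℝ}

theorem GD2.domQ {J Λ₁ M : ℕ} [NeZero M] {Γ : ℝ} {Λ : Finset Site} {T ρ H k : ℕ} {a : Site}
    {hs : Fin H → Site} {s : Fin k → Tor M × Fin 4} {u : Fin k → ℕ → Tor M × Fin 4 → ℝ}
    {ν : Fin k → ℕ → ℝ} (G : GD2 Q L J Λ₁ Γ c' η₁ M Λ T ρ a hs s u ν) (hL : 2 ≤ L) {n m N : ℕ}
    {x : Fin n → Site} {y : Fin m → Site} (j : Fin m → Fin 2) (h2 : Spins Λ ρ (Sum.elim x y))
    (hN : n + H + 1 + m ≤ N) (t : Finset (Fin m)) (S : Finset (Fin H)) :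
    DomQ Q (pwI (Λ.image (prj M))) (spinG M a x * holeG M a hs S) (fun i : t => yE M y j i)
      (fun i : t => dE y j i) n L J N (64 * Λ₁) Γ ∧ ∀ φ, φ ⬝ᵥ φ ≤ (Γ * sc L J) ^ 2 *
        ((Dm (pwI (Λ.image (prj M)) * (spinG M a x * holeG M a hs S)) *ᵥ φ) ⬝ᵥ
          (Dm (pwI (Λ.image (prj M)) * (spinG M a x * holeG M a hs S)) *ᵥ φ)) := by
  have l1 : 8 * J + 8 ≤ sc L J := sc_ge hL
  have r1 := G.lo
  have r2 := G.le
  have hMT := G.eq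
  have r4 : 8 * sc L J ≤ ρ - 3 := by omega
  have hx : Spins Λ ρ x := h2.comp Sum.inl_injective
  have hxy : Spins Λ ρ (Sum.elim x fun i : t => y i) := by
    have := h2.comp (f := Sum.map id fun i : t => i.1)
      (Function.injective_id.sumMap Subtype.val_injective)
    rwa [Sum.elim_comp_map] at this
  obtain ⟨s1, s2, -, -, s5, s6⟩ := str_reg (M := M) (fr := false) S G.holes hx (by simp) (by omega)
    (by omega)
  have b0 := G.bd 1 (str_one _ _)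
  have g0 := G.gap 1 (str_one _ _) fun _ _ => rfl
  rw [mul_one] at b0 g0
  have sp := sepW_reg (M := M) (fr := false) S (fun i : t => j i) J G.holes hxy (by simp)
    (by omega) (by omega)
  have cd : t.card ≤ m := by simpa using card_le_univ t
  exact ⟨{
    P_ok := (regOf M Λ false).isP
    str := s1.mono (by omega)
    sep := ⟨fun f hf f' h' h'' => sp.ff f hf f' h' (h''.trans r4),
      fun k f hf => sp.fs k f (hf.trans r4), fun k k' hk => r4.trans_lt (sp.ss k k' hk)⟩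
    lo := by omega
    hi := by rw [hMT, mul_assoc]; exact Nat.mul_le_mul_left _ G.hi
    bd := G.bd _ s1
    bd0 := b0
    gap := g0
    card := by rw [Fintype.card_coe]; omega
    cnt := s6 }, G.gap _ s1 s2⟩

theorem coreK2 (hL : 2 ≤ L) (hM : MainJK2 Q q Zσ Zε L c' η₁ m K₁ δ) (K : ℕ) : ∃ θ > 0,
    ∀ (n N Λ₁ : ℕ) (Γ : ℝ), 1 ≤ Γ → ∃ B : ℝ, ∀ ε > 0, ∃ J₀ : ℕ, ∀ J ≥ J₀, ∀ (M : ℕ) [NeZero M]
      (Λ : Finset Site) (T ρ H k : ℕ) (a : Site) (hs : Fin H → Site) (s : Fin k → Tor M × Fin 4)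
      (u : Fin k → ℕ → Tor M × Fin 4 → ℝ) (ν : Fin k → ℕ → ℝ) (e : Finset (Fin H) → ℝ)
      (ς : Site → ℝ), GD2 Q L J Λ₁ Γ c' η₁ M Λ T ρ a hs s u ν → n + H + 1 + m + k ≤ N → IsSign e →
      IsSign ς → ∀ (v : Cor M) (o : ℝ) (O : Fin k → (Tor M × Fin 2 → Bool) → ℝ), v.Ok →
      v.Off (pwI (Λ.image (prj M))) → v.Le K₁ δ → LocO s K O → |o| ≤ 1 →
      (∀ i n, |O i n - o| ≤ θ) → ∃ z : Fin k → ℝ, (∀ i, |z i - o| ≤ 1 / 2) ∧ ∀ n' ≤ n,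
        ∀ (x : Fin n' → Site) (y : Fin m → Site) (j : Fin m → Fin 2),
        Spins Λ ρ (Sum.elim x y) → ∀ t : Finset (Fin m),
        |(wS (sc L J) (∏ i, ν i J) n' t.card)⁻¹ *
          ((∏ i, ς (x i)) * mxV q v (Λ.image (prj M)) a hs e s O y j x t) - (∏ i, z i) *
          (Zσ ^ n' * Zε ^ t.card *
            fS (Λ.image (prj M)) a hs s e ς y j (sc L J) (∏ i, ν i J) par0 1 x t)| ≤ ε ∧
        |fS (Λ.image (prj M)) a hs s e ς y j (sc L J) (∏ i, ν i J) par0 1 x t| ≤ B := by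
  obtain ⟨θ, hθ, hM⟩ := hM K
  refine ⟨θ, hθ, fun n N Λ₁ Γ hΓ => ?_⟩
  choose CK hCK hK using plus_K
  set CS := ∑ i ∈ range (n + 1), CK i with hCS
  have cs0 : 0 ≤ CS := sum_nonneg fun i _ => hCK i
  obtain ⟨B, hM⟩ := hM N (64 * Λ₁) Γ hΓ
  refine ⟨2 ^ N * (|B| * CS), fun ε hε => ?_⟩
  obtain ⟨J₀, hM⟩ := hM (ε / 2 ^ N / (CS + 1)) (by positivity)
  refine ⟨J₀, fun J hJ M _ Λ T ρ H k a hs s u ν e ς G hN he hς v o O v1 v2 v3 hO ho hθ' => ?_⟩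
  obtain ⟨z, hz, hM⟩ := hM J hJ M _ v k s u ν o O v1 v2 v3 (by omega) G.dat hO ho hθ'
  refine ⟨z, hz, fun n' hn x y j h2 t => ?_⟩
  have l1 : 8 * J + 8 ≤ sc L J := sc_ge hL
  have r1 := G.lo
  have r2 := G.le
  have hMT := G.eq
  have ν0 : 0 < ∏ i, ν i J := prod_pos fun i _ => (G.dat.ch i).nu_pos le_rfl
  have l0 : (0 : ℝ) < sc L J := by exact_mod_cast (by omega : 0 < sc L J)
  have w0 : 0 < wS (sc L J) (∏ i, ν i J) n' t.card := by unfold wS; positivity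
  have e1 : ∀ u : ℝ, u / (sc L J : ℝ) ^ t.card * (CS * (sc L J : ℝ) ^ (-((n' : ℝ) / 8)) *
      ∏ i, ν i J) = u * CS * wS (sc L J) (∏ i, ν i J) n' t.card := fun u => by
    unfold wS
    ring
  have key := fun S : Finset (Fin H) => by
    obtain ⟨d1, d2⟩ := G.domQ hL j h2 (by omega : n' + H + 1 + m ≤ N) t S
    have k2 := hK n' M Λ T ρ H x a hs S G.holes (h2.comp Sum.inl_injective) (by omega) (by omega)
    have k3 : CK n' * (ρ : ℝ) ^ (-((n' : ℝ) / 8)) ≤ CS * (sc L J : ℝ) ^ (-((n' : ℝ) / 8)) :=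
      mul_le_mul (single_le_sum (fun i _ => hCK i) (mem_range.2 (by omega)))
        (Vale.Agent.P144Z.K.rpow_le (by omega) (by omega) n') (by positivity) cs0
    have := hM _ t _ _ n' _ (by simpa using card_le_univ t) d1 d2 (k2.trans (mul_le_mul_of_nonneg_right k3 (abs_nonneg _)))
    rw [Fintype.card_coe, e1, e1] at this
    exact this
  have w3 : ε / 2 ^ N / (CS + 1) * CS ≤ ε / 2 ^ N := by
    rw [div_mul_eq_mul_div, div_le_iff₀ (by linarith)]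
    exact mul_le_mul_of_nonneg_left (by linarith) (by positivity)
  refine ⟨le_trans (le_of_eq (congrArg _ ?_)) ((sum_le (H₀ := N) (by omega) he w0 (abs_sign hς x)
    w3 (by positivity) fun S => (key S).1).trans (le_of_eq (by field_simp))),
    sum_le (by omega) he w0 (abs_sign hς x) (mul_le_mul_of_nonneg_right (le_abs_self B) cs0)
      (by positivity) fun S => (key S).2⟩
  simp only [fS, mxJ, mxV, mul_sub, sum_sub_distrib, mul_sum]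
  exact congrArg _ (sum_congr rfl fun S _ => by ring)

theorem enK2 (hL : 2 ≤ L) (hE : EnK Q q L K₁ δ) (m N Λ₁ : ℕ) {Γ : ℝ}
    (hΓ : 1 ≤ Γ) : ∀ ε > 0, ∃ J₀ : ℕ, ∀ J ≥ J₀, ∀ (M : ℕ) [NeZero M]
      (Λ : Finset Site) (T ρ H k : ℕ) (a : Site) (hs : Fin H → Site) (s : Fin k → Tor M × Fin 4)
      (u : Fin k → ℕ → Tor M × Fin 4 → ℝ) (ν : Fin k → ℕ → ℝ),
      GD2 Q L J Λ₁ Γ c' η₁ M Λ T ρ a hs s u ν → H + 1 + m ≤ N → ∀ v : Cor M, v.Ok →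
      v.Off (pwI (Λ.image (prj M))) → v.Le K₁ δ → ∀ (y : Fin m → Site)
        (j : Fin m → Fin 2), Spins Λ ρ (Sum.elim Fin.elim0 y : Fin 0 ⊕ Fin m → Site) → ∀ i,
        |sc L J * (enC q v (pwI (Λ.image (prj M))) (yE M y j i) (dE y j i) -
          enC q 0 (pwI (Λ.image (prj M))) (yE M y j i) (dE y j i))| ≤ ε := by
  intro ε hε
  obtain ⟨J₀, hE⟩ := hE N (64 * Λ₁) Γ hΓ ε hε
  refine ⟨J₀, fun J hJ M _ Λ T ρ H k a hs s u ν G hN v v1 v2 v3 y j h2 i => ?_⟩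
  rw [abs_mul, Nat.abs_cast]
  exact hE J hJ M _ _ v _ _ _ 0 (by simp) (G.domQ hL j h2 (by omega) {i} ∅).1 v1 v3 v2
    ⟨i, mem_singleton_self i⟩

theorem sideK2 (hL : 2 ≤ L) (hq : 0 < q.x) (hU : UnivJK2 Q q Zσ Zε L c' η₁ m) (K K₁ : ℕ) :
    ∃ θ > 0, ∀ C : ℝ, 1 ≤ C → ∀ (n N Λ₁ : ℕ) (Γ : ℝ), 1 ≤ Γ → ∃ B : ℝ, ∀ ε > 0, ∃ J₀ : ℕ, ∀ J ≥ J₀, ∀ (M : ℕ) [NeZero M]
      (Λ P : Finset Site) (T ρ H k : ℕ) (a : Site) (hs : Fin H → Site)
      (s : Fin k → Tor M × Fin 4) (u : Fin k → ℕ → Tor M × Fin 4 → ℝ) (ν : Fin k → ℕ → ℝ)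
      (e : Finset (Fin H) → ℝ) (ς : Site → ℝ) (O : Fin k → (Tor M × Fin 2 → Bool) → ℝ)
      (O' : Site → (Tor M × Fin 2 → Bool) → ℝ) (x : Fin n → Site) (y : Fin m → Site)
      (j : Fin m → Fin 2), GD2 Q L J Λ₁ Γ c' η₁ M Λ T ρ a hs s u ν → n + H + 1 + m + k ≤ N →
      IsSign e → IsSign ς → (∀ p ∈ P, zd p 0 ≤ T ∧ ∀ v, zd v p ≤ 1 → v ∉ Λ) →
      (∀ p ∈ P, ∀ p' ∈ P, p ≠ p' → 2 * K₁ < zd p p') → P.card ≤ N →
      K₁ + q.R ≤ T → LocE P K₁ O' → (∀ p n, C⁻¹ ≤ O' p n ∧ O' p n ≤ C) → LocO s K O →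
      (∀ i n, |O i n - 0| ≤ θ) → Spins Λ ρ (Sum.elim x y) → ∃ ζ ζ₁ : ℝ, |ζ| ≤ B ∧ (1 / 2) ^ N ≤ ζ₁ ∧
        Ap (fW (Λ.image (prj M)) a hs s e ς y j (sc L J) (∏ i, ν i J) q O
            (fun n => ∏ p ∈ P, O' p n) Fin.elim0)
          (fW (Λ.image (prj M)) a hs s e ς y j (sc L J) (∏ i, ν i J) q O
            (fun n => ∏ p ∈ P, O' p n) x)
          (fS (Λ.image (prj M)) a hs s e ς y j (sc L J) (∏ i, ν i J) par0 1 Fin.elim0)
          (fS (Λ.image (prj M)) a hs s e ς y j (sc L J) (∏ i, ν i J) par0 1 x) ζ (Zσ ^ n) Zε ε ∧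
        Ap (fS (Λ.image (prj M)) a hs s e ς y j (sc L J) (∏ i, ν i J) q 1 Fin.elim0)
          (fS (Λ.image (prj M)) a hs s e ς y j (sc L J) (∏ i, ν i J) q 1 x)
          (fS (Λ.image (prj M)) a hs s e ς y j (sc L J) (∏ i, ν i J) par0 1 Fin.elim0)
          (fS (Λ.image (prj M)) a hs s e ς y j (sc L J) (∏ i, ν i J) par0 1 x) ζ₁ (Zσ ^ n) Zε ε ∧
        ∀ t, |fS (Λ.image (prj M)) a hs s e ς y j (sc L J) (∏ i, ν i J) par0 1 Fin.elim0 t| ≤ B ∧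
          |fS (Λ.image (prj M)) a hs s e ς y j (sc L J) (∏ i, ν i J) par0 1 x t| ≤ B := by
  obtain ⟨δ, hδ, hM, hE⟩ := hU (2 * K₁)
  obtain ⟨θ, hθ, hc⟩ := coreK2 hL hM K
  refine ⟨θ, hθ, fun C hC n N Λ₁ Γ hΓ => ?_⟩
  obtain ⟨B, hc⟩ := hc n N Λ₁ Γ hΓ
  obtain ⟨BT, hT⟩ := tiltPU C δ N hC hδ
  set z : ℝ := (|Zσ| + 1) ^ n * (|Zε| + 1) ^ m with hz
  have a1 : 1 ≤ |Zσ| + 1 := by linarith [abs_nonneg Zσ]
  have a2 : 1 ≤ |Zε| + 1 := by linarith [abs_nonneg Zε]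
  have a6 : ∀ i ≤ n, ∀ t : Finset (Fin m), |Zσ ^ i * Zε ^ t.card| ≤ z := fun i hi t => by
    rw [abs_mul, abs_pow, abs_pow]
    exact mul_le_mul ((pow_le_pow_left₀ (abs_nonneg _) (by linarith) i).trans
      (pow_le_pow_right₀ a1 hi)) ((pow_le_pow_left₀ (abs_nonneg _) (by linarith) _).trans
      (pow_le_pow_right₀ a2 (by simpa using card_le_univ t))) (by positivity) (by positivity)
  set A : ℝ := 1 + z * |B| with hA
  set D : ℝ := (|BT| + 1) * (1 + 2 ^ m * A) with hD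
  have A0 : 0 < A := by positivity
  have D1 : 1 ≤ D := one_le_mul_of_one_le_of_one_le (by linarith [abs_nonneg BT])
    (by linarith [(by positivity : 0 ≤ 2 ^ m * A)])
  refine ⟨|B| + |BT|, fun ε hε => ?_⟩
  set ε' := min (ε / D) 1 with hε'
  have e0 : 0 < ε' := by positivity
  have e1 : ε' ≤ 1 := min_le_right _ _
  have e2 : D * ε' ≤ ε := by
    rw [← le_div_iff₀' (by positivity)]
    exact min_le_left _ _
  obtain ⟨J₁, hc⟩ := hc ε' e0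
  obtain ⟨J₂, hE⟩ := enK2 (c' := c') (η₁ := η₁) hL hE m N Λ₁ hΓ ε' e0
  refine ⟨max J₁ J₂, fun J hJ M _ Λ P T ρ H k a hs s u ν e ς O O' x y j G hN he hς p1 p2 p3
    p5 p6 p7 hO hθ' h2 => ?_⟩
  have hs0 : Spins Λ ρ (Sum.elim (Fin.elim0 : Fin 0 → Site) y) := by
    have := h2.comp (f := Sum.map (Fin.elim0 : Fin 0 → Fin n) id)
      (Function.Injective.sumMap (fun i => i.elim0) Function.injective_id)
    have e : x ∘ (Fin.elim0 : Fin 0 → Fin n) = Fin.elim0 := funext fun i => i.elim0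
    rwa [Sum.elim_comp_map, e, Function.comp_id] at this
  have l1 : 8 * J + 8 ≤ sc L J := sc_ge hL
  have l0 : (0 : ℝ) < sc L J := by exact_mod_cast (by omega : 0 < sc L J)
  have r1 := G.lo
  have r2 := G.le
  have r3 := G.eq
  obtain ⟨w, c, w1, w2, w3⟩ := hT q hq M Λ P T K₁ O' G.holes.box p1 p2 p3 (by omega) p6 p7
  replace hc := hc J (le_of_max_le_left hJ) M Λ T ρ H k a hs s u ν e ς G hN he hς
  replace hE := fun U => hE J (le_of_max_le_right hJ) M Λ T ρ H k a hs s u ν G (by omega) (w U)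
    (w1 U).1 (w1 U).2.1 (w1 U).2.2 y j hs0
  choose zz z1 z2 using fun U => hc (w U) 0 O (w1 U).1 (w1 U).2.1 (w1 U).2.2 hO (by simp) hθ'
  obtain ⟨z₁, z3, z4⟩ := hc 0 1 1 (Cor.ok_zero _) (fun _ _ _ => rfl) (le_zero _ hδ.le)
    (fun _ _ _ _ => rfl) (by simp) fun _ _ => by simpa using hθ.le
  have z5 : ∀ U, |∏ i, zz U i| ≤ 1 := fun U => by
    rw [abs_prod]
    exact prod_le_one (fun _ _ => abs_nonneg _) fun i _ => by
      have := z1 U i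
      rw [sub_zero] at this
      linarith
  have key : ∀ n' ≤ n, ∀ x : Fin n' → Site, Spins Λ ρ (Sum.elim x y) → ∀ t,
      |fW (Λ.image (prj M)) a hs s e ς y j (sc L J) (∏ i, ν i J) q O (fun n => ∏ p ∈ P, O' p n)
        x t - (∑ U ∈ P.powerset, c U * ∏ i, zz U i) * (Zσ ^ n' * Zε ^ t.card *
          fS (Λ.image (prj M)) a hs s e ς y j (sc L J) (∏ i, ν i J) par0 1 x t)| ≤ ε := by
    intro n' hn x hx t
    rw [fW_tilt _ w3, sum_mul, ← sum_sub_distrib]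
    refine (abs_sum_le_sum_abs _ _).trans ((sum_le_sum fun U _ =>
      (?_ : _ ≤ |c U| * (ε' + 2 ^ m * (ε' * A)))).trans ?_)
    · rw [mul_assoc, ← mul_sub, abs_mul]
      refine mul_le_mul_of_nonneg_left (tilt_est t e0.le e1 (hE U) (fun t' => ?_)
        (z2 U n' hn x y j hx t).1) (abs_nonneg _)
      obtain ⟨k1, k2⟩ := z2 U n' hn x y j hx t'
      refine (abs_sub_abs_le_abs_sub _ _ |>.trans k1 |> sub_le_iff_le_add.1).trans
        (add_le_add e1 ?_)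
      rw [abs_mul, abs_mul]
      exact (mul_le_of_le_one_left (by positivity) (z5 U)).trans (mul_le_mul (a6 n' hn t')
        (k2.trans (le_abs_self B)) (abs_nonneg _) (by positivity))
    · rw [← sum_mul]
      refine le_trans (mul_le_mul_of_nonneg_right (w2.trans ((le_abs_self BT).trans
        (le_add_of_nonneg_right zero_le_one))) (by positivity)) (le_trans (le_of_eq ?_) e2)
      rw [hD]
      ring
  have e3 : ε' ≤ ε := (le_mul_of_one_le_left e0.le D1).trans e2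
  simp only [mxV_zero] at z4
  refine ⟨_, ∏ i, z₁ i, ?_, (prod_z (by omega) z3 (z1 ∅)).1, fun t => ⟨?_, key n le_rfl x h2 t⟩,
    fun t => ⟨?_, (z4 n le_rfl x y j h2 t).1.trans e3⟩, fun t => ⟨?_, ?_⟩⟩
  · refine (abs_sum_le_sum_abs _ _).trans ((sum_le_sum fun U _ => (?_ : _ ≤ |c U|)).trans ?_)
    · rw [abs_mul]
      exact mul_le_of_le_one_right (abs_nonneg _) (z5 U)
    · linarith [le_abs_self BT, abs_nonneg B]
  · simpa only [pow_zero, one_mul] using key 0 (Nat.zero_le _) _ hs0 t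
  · have h := (z4 0 (Nat.zero_le _) _ y j hs0 t).1.trans e3
    simp only [pow_zero, one_mul] at h
    exact h
  · linarith [(z4 0 (Nat.zero_le _) _ y j hs0 t).2, le_abs_self B, abs_nonneg BT]
  · linarith [(z4 n le_rfl _ y j h2 t).2, le_abs_self B, abs_nonneg BT]

theorem halfK2 (hL : 2 ≤ L) (hU : UnivJK2 Q q Zσ Zε L c' η₁ m) {R R₁ t : ℕ} (K : ℕ)
    (hR : q.R ≤ R) (ht : 1 ≤ t) (hR₁ : R₁ ≤ R) (hV : ∀ B, q.V B ≠ 0 → (0, 0) ∈ B → B ∈ potSets R₁)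
    (x1 : 1 / 4 ≤ q.x) (x2 : q.x ≤ 1 / 2) (hsm : q.Small 1) {J lam β : ℝ} (hr : Rel J lam β q)
    (n N Λ₁ : ℕ) {Γ : ℝ} (hΓ : 1 ≤ Γ) : ∃ τ > 0, ∃ B : ℝ, ∀ ε > 0, ∃ J₀ : ℕ, ∀ J' ≥ J₀,
      ∀ (M : ℕ) [NeZero M] (Λ P : Finset Site) (T ρ H k : ℕ) (a : Site) (hs : Fin H → Site)
      (p : Fin k → Site) (e : Fin k → Fin 4) (u : Fin k → ℕ → Tor M × Fin 4 → ℝ)
      (ν : Fin k → ℕ → ℝ) (ε' : Finset (Fin H) → ℝ) (ς : Site → ℝ) (κ₀ : ℝ) (N₀ : ℕ) (νc : Fin k → ℂ) (b b₁ b' : Config)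
      (x : Fin n → Site) (y : Fin m → Site) (j : Fin m → Fin 2),
      GD2 Q L J' Λ₁ Γ c' η₁ M (dig Λ P t) T ρ a hs (mkS M p e) u ν → n + H + 1 + m + k ≤ N →
      P.card ≤ N → IsSign ε' → IsSign ς → κ₀ ≠ 0 →
      Sel ((dig Λ P t).image (prj M)) a hs b' (mkS M p e) ε' ς κ₀ → (∀ v ∈ Λ, zd v 0 ≤ T) →
      (∀ z ∈ P, zd z 0 ≤ T) → MkG2 (dig Λ P t) N₀ ρ p e νc → MkB (dig Λ P t) b₁ b' (2 * R + 4) K p e →
      (∀ v, v ∉ Λ → b₁ v = b v) → (∀ z ∈ P, ∀ z' ∈ P, z ≠ z' → ρ < zd z z') →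
      (∀ z ∈ P, ∀ v, zd v z ≤ ρ → v ∉ dig Λ P t → b₁ v = b₁ z) → (∀ z ∈ P, ∀ i, ρ < zd (p i) z) →
      Spins (dig Λ P t) ρ (Sum.elim x y) → ∃ (f₀ f₁ : Finset (Fin m) → ℝ) (ζ ζ₁ : ℝ),
        UL.psi (f₀ ∅) (fun i => f₀ {i}) f₁ = (sc L J' : ℝ) ^ ((n : ℝ) / 8) * (sc L J' : ℝ) ^ m *
          lcor (gibbs J lam q.V β (some b) Λ) x y j ∧ |ζ| ≤ B ∧ τ ≤ ζ₁ ∧
        Ap f₀ f₁ (fS ((dig Λ P t).image (prj M)) a hs (mkS M p e) ε' ς y j (sc L J')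
            (∏ i, ν i J') par0 1 Fin.elim0)
          (fS ((dig Λ P t).image (prj M)) a hs (mkS M p e) ε' ς y j (sc L J') (∏ i, ν i J')
            par0 1 x) ζ (Zσ ^ n) Zε ε ∧
        Ap (fS ((dig Λ P t).image (prj M)) a hs (mkS M p e) ε' ς y j (sc L J') (∏ i, ν i J')
            q 1 Fin.elim0)
          (fS ((dig Λ P t).image (prj M)) a hs (mkS M p e) ε' ς y j (sc L J') (∏ i, ν i J') q 1 x)
          (fS ((dig Λ P t).image (prj M)) a hs (mkS M p e) ε' ς y j (sc L J') (∏ i, ν i J')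
            par0 1 Fin.elim0)
          (fS ((dig Λ P t).image (prj M)) a hs (mkS M p e) ε' ς y j (sc L J') (∏ i, ν i J')
            par0 1 x) ζ₁ (Zσ ^ n) Zε ε ∧
        (∀ s, |fS ((dig Λ P t).image (prj M)) a hs (mkS M p e) ε' ς y j (sc L J') (∏ i, ν i J')
            par0 1 Fin.elim0 s| ≤ B ∧ |fS ((dig Λ P t).image (prj M)) a hs (mkS M p e) ε' ς y j
              (sc L J') (∏ i, ν i J') par0 1 x s| ≤ B) ∧
        τ * |fS ((dig Λ P t).image (prj M)) a hs (mkS M p e) ε' ς y j (sc L J') (∏ i, ν i J')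
            q 1 Fin.elim0 ∅| ≤ |f₀ ∅| := by
  obtain ⟨K', C, hC, hS⟩ := secW R K t
  have q0 : 0 < q.x := by linarith
  obtain ⟨θ₁, hθ₁, h1⟩ := sideK2 hL q0 hU K' (t + R₁ + 2)
  obtain ⟨B, h1⟩ := h1 C hC n N Λ₁ Γ hΓ
  set θ : ℝ := min θ₁ 1 with hθ
  have θ0 : 0 < θ := by positivity
  have C1 : C⁻¹ ≤ 1 := inv_le_one_of_one_le₀ hC
  have θ1 : θ / C * C⁻¹ ≤ 1 := mul_le_one₀ ((div_le_self θ0.le hC).trans (min_le_right _ _))
    (by positivity) C1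
  refine ⟨min ((1 / 2) ^ N) (C⁻¹ ^ N * (θ / C * C⁻¹) ^ N), by positivity, B, fun ε hε => ?_⟩
  obtain ⟨J₁, h1⟩ := h1 ε hε
  refine ⟨max J₁ (K' + R + t), fun J' hJ M _ Λ P T ρ H k a hs p e u ν ε' ς κ₀ N₀ νc b b₁ b' x y j G hN
    hP hε' hς κ0 sel hΛ p1 mg mb b1 p2 b2 p3 h2 => ?_⟩
  have l1 : 8 * J' + 8 ≤ sc L J' := sc_ge hL
  have l2 : K' + R + t ≤ J' := le_of_max_le_right hJ
  have r1 := G.lo
  have r2 := G.le
  have r3 := G.eq
  obtain ⟨O, O', lo, o1, lo', o2, hG⟩ := hS J lam β q R₁ hr hR hR₁ hV x1 x2 hsm M Λ P T k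
    p e b b₁ b' hΛ p1 (by omega) (fun i => ⟨(mg.mk1 i).touch, (mg.mk1 i).rem⟩)
    (fun i i' h => lt_of_le_of_lt (by omega) (mg.sep i i' h)) mb b1
    (fun z hz z' hz' h => lt_of_le_of_lt (by omega) (p2 z hz z' hz' h))
    (fun z hz v hv => b2 z hz v (by omega)) fun z hz i => lt_of_le_of_lt (by omega) (p3 z hz i)
  have sO : ∀ i n, |θ / C * O i n - 0| ≤ θ₁ ∧ θ / C * C⁻¹ ≤ θ / C * O i n := fun i n => by
    have t1 : 0 ≤ θ / C := by positivity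
    have t2 := mul_le_mul_of_nonneg_left (o1 i n).2 t1
    have t3 := mul_le_mul_of_nonneg_left (o1 i n).1 t1
    rw [div_mul_cancel₀ _ (by positivity)] at t2
    rw [sub_zero, abs_of_nonneg (le_trans (by positivity) t3)]
    exact ⟨t2.trans (min_le_left _ _), t3⟩
  obtain ⟨ζ, ζ₁, a1, a2, a3, a4, a5⟩ := h1 J' (le_of_max_le_left hJ) M _ P T ρ H k a hs
    _ u ν ε' ς (fun i n => θ / C * O i n) O' x y j G hN hε' hς
    (fun z hz => ⟨p1 z hz, fun v hv h => absurd ((mem_dig.1 h).2 z hz) (by omega)⟩)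
    (fun z hz z' hz' h => lt_of_le_of_lt (by omega) (p2 z hz z' hz' h)) hP (by omega)
    lo' o2 (fun i n n' h => congrArg _ (lo i n n' h)) (fun i n => (sO i n).1) h2
  have hx' : ∀ i, x i ∈ dig Λ P t := fun i => h2.ins (Sum.inl i) _ (by simp [zd_self])
  have hy' : ∀ k, y k ∈ dig Λ P t ∧ y k + dir (j k) ∈ dig Λ P t := fun k =>
    ⟨h2.ins (Sum.inr k) _ (by simp [zd_self]),
      h2.ins (Sum.inr k) _ ((zd_add_dir _ _).trans (by omega))⟩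
  have hyI : ∀ i, yE M y j i ∈ (dig Λ P t).image (prj M) := fun i => mem_image_of_mem _ (hy' i).2
  have l0 : (0 : ℝ) < sc L J' := by exact_mod_cast (by omega : 0 < sc L J')
  have ν0 : 0 < ∏ i, ν i J' := prod_pos fun i _ => (G.dat.ch i).nu_pos le_rfl
  refine ⟨_, _, ζ, ζ₁, ?_, a1, (min_le_left _ _).trans a2, a3, a4, a5,
    fW_ge (c := θ / C * C⁻¹) (c' := C⁻¹ ^ N) sel hyI ν0 q0.le (by positivity) (by positivity)
      (fun i n => (sO i n).2) (fun n => ?_) ((min_le_right _ _).trans ?_)⟩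
  · rw [psi_fW l0 ν0, lcor_eqW sel hς κ0 (DH1.Zw_plus_pos G.holes.box (by omega) q0).ne'
      (fun F hF => ?_) hyI hx' hy']
    rw [sB_smul, sB_smul, mul_div_mul_left _ _ (by positivity)]
    exact hG F hF
  · refine (pow_le_pow_of_le_one (by positivity) C1 hP).trans ?_
    rw [← prod_const]
    exact prod_le_prod (fun _ _ => by positivity) fun z _ => (o2 z n).1
  · exact mul_le_mul_of_nonneg_left (pow_le_pow_of_le_one (by positivity) θ1 (by omega))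
      (by positivity)

end Vale.Agent.P144C
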